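import Crest.Agent.X212.Num99.One
import Crest.Agent.X212.Num36.Cx
import Crest.Agent.X212.Num36.Fsj
import Crest.Agent.X212.Num36.Cka
import Crest.Agent.X212.Lxd19.Br
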